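import Vale.Agent.P216SO.Cp
import Vale.Agent.P216DC.Cpt
import Vale.Agent.P216LC.RicAp
import Vale.Agent.P216LC.NmpA
import Vale.Agent.P216BG.Spl
import Vale.Agent.P216D.Rtr
import Vale.Agent.P216SD.Fwd
import Vale.Agent.P216LP.Lpx

/-!
# P216SO: the blow up limit in the presence of a cap
-/

open scoped Manifold ContDiff Topology ENNReal
open Set MeasureTheory Filter

set_option maxSynthPendingDepth 3

noncomputable section

namespace Vale.Agent.P216SO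

open Vale.Agent.P216R Vale.Agent.P216DC Vale.Agent.P216SG Vale.Agent.P216BF Vale.Agent.P216FA
open Vale.Agent.P216U Vale.Agent.P216LN

/-- a blow up sequence whose balls are covered by flows that start from caps -/
structure Sq {ι : Type} {X : ι → Mf} (P : Cs) (l : Filter ι) (F : ∀ n, Dat (X n).M)
    (K T R h₀ : ℝ) (β : ι → ℝ) (p : ∀ n, (X n).M) : Prop where
  bu : BU P l F
  del : Tendsto (fun n => (F n).δ) l (𝓝 0)
  c1 : ∀ j, 1 ≤ P.c j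
  K0 : 0 ≤ K
  h0 : 0 < h₀
  tp : ∀ᶠ n in l, Tp (F n) P.c (β n) (p n) T R h₀
  cp : ∀ A > 0, ∀ᶠ n in l, Cp (F n) (β n) A K

/-- a time slice of the limit flow shortly after the birth of the caps -/
def Wit {ι : Type} {X : ι → Mf} {l : Filter ι} {F : ∀ n, Dat (X n).M} (L : LimF l F)
    (β : ι → ℝ) (E θ : ℝ) : Prop :=
  ∃ t ≤ 0, ∃ (V : ∀ n, Set (X n).M) (h' : Ten E3 L.X),
    Conv l V (fun n => (F n).g t) L.F h' univ ∧
    (∀ᶠ n in l, Met ((F n).g t) (V n) ∧ β n ≤ t ∧ t ≤ β n + θ) ∧ NN h' univ ∧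
    (∀ k, (∀ q, k ≤ Sc h' q) → ∀ q, k ≤ Sc L.h q) ∧
    (∀ k ≥ 0, (∀ q, Sc h' q ≤ k) → ∀ q, Sc L.h q ≤ k * E) ∧
    ∀ f, Spl L.h univ f → ∃ f', Spl h' univ f'

variable {ι : Type} {l : Ultrafilter ι} {X : ι → Mf} {F : ∀ n, Dat (X n).M} {P : Cs}
  {K T R h₀ A : ℝ} {β : ι → ℝ} {p : ∀ n, (X n).M}

theorem ev_mem (L : LimF l F) (q : L.X) :
    ∃ A > 0, ∀ᶠ n in (l : Filter ι), L.F n q ∈ bl ((F n).g 0) (F n).U (F n).x A :=
  let ⟨A, A0, k, _⟩ := exists_ofReal (L.lt q)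
  ⟨A, A0, L.conv.ap_lt L.ap (ap_const q) k⟩

namespace Sq

variable (h : Sq P l F K T R h₀ β p)
include h

theorem cap (A0 : 0 < A) : ∀ᶠ n in (l : Filter ι), bl ((F n).g 0) (F n).U (F n).x A ⊆
    bl ((F n).g (β n)) (postS (F n).b (F n).d (β n)) (p n) ((F n).h / (F n).δ) := by
  filter_upwards [h.tp, h.cp A A0, ev_small h.del (P.c 0) one_half_pos,
    ev_small h.del (R + Real.exp (2 * K * T) * A) (half_pos h.h0)] with n k1 k2 k3 k4
  exact k2.cap k1 (h.bu.all n).1 h.K0 k3 k4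

theorem shi (k : ℕ) : ∃ D, ∀ A > 0, ∀ᶠ n in (l : Filter ι), ∀ σ ∈ Icc (β n) 0,
    ∀ u ∈ bl ((F n).g 0) (F n).U (F n).x A, RmB ((F n).g σ) k u D := by
  obtain ⟨D, hD⟩ := shi_cp P.c h.c1 k K T h.h0
  refine ⟨D, fun A A0 => ?_⟩
  filter_upwards [h.tp, h.cp (A + 1) (by linarith), h.cap (A := A + 1) (by linarith),
    ev_small h.del k one_pos] with n k1 k2 k3 k4
  exact hD _ _ _ _ _ _ (h.bu.all n).1 (h.bu.all n).2.1 k2 k1
    (by rw [le_div_iff₀ (h.bu.all n).1.dpos]; linarith) k3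

theorem sc : ∃ C ≥ 0, ∀ A > 0, ∀ᶠ n in (l : Filter ι), ∀ σ ∈ Icc (β n) 0,
    ∀ u ∈ bl ((F n).g 0) (F n).U (F n).x A,
      (1 - (F n).δ) * ((F n).h ^ 2)⁻¹ - C * (σ - β n) ≤ Sc ((F n).g σ) u ∧
      Sc ((F n).g σ) u ≤ P.c 0 * ((F n).h ^ 2)⁻¹ + C * (σ - β n) := by
  obtain ⟨D, hD⟩ := h.shi 2
  obtain ⟨C, C0, hC⟩ := sc_lip K D
  refine ⟨C, C0, fun A A0 => ?_⟩
  filter_upwards [h.tp, h.cp A A0, h.cap A0, hD A A0] with n k1 k2 k3 k4 σ hσ u hu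
  have a := abs_le.1 (hC _ _ _ _ _ u k2.rf hu (fun t ht => ⟨k2.rm t ht u hu, k4 t ht u hu⟩) σ hσ)
  have b := k1.tip.sc u (k3 hu)
  have q := pow_pos (h.bu.all n).1.hpos 2
  have b1 := (div_le_iff₀' q).2 b.1
  have b2 := (le_div_iff₀' q).2 b.2
  rw [div_eq_mul_inv] at b1 b2
  exact ⟨by linarith [a.1], by linarith [a.2]⟩

/-- the base slices converge -/
theorem lim (κ0 : 0 < P.κ) : Nonempty (LimF l F) := by
  have K0 := h.K0
  refine cgh l (bu_met h.bu) (bu_hs h.bu) (fun n => (h.bu.all n).1.mem) ENNReal.zero_lt_top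
    (good ι l _ _ _ _ ⊤ (bu_met h.bu) (bu_hs h.bu) (fun n => (h.bu.all n).1.mem)
      (fun r r0 _ => ⟨.of_forall fun n => (bu_cpl h.bu n).cpt (h.bu.all n).1.mem r, fun k => ?_⟩)
      ⟨P.κ, κ0, 1 / (6 * K + 1), by positivity, ENNReal.ofReal_lt_top, ?_⟩)
  · obtain ⟨D, hD⟩ := h.shi k
    exact ⟨D, ((hD r r0).and h.tp).mono fun n k => k.1 0 ⟨k.2.neg, le_rfl⟩⟩
  · have q1 : 1 / (6 * K + 1) ≤ 1 := (div_le_one (by linarith)).2 (by linarith)
    filter_upwards [h.cp 1 one_pos, h.tp, h.bu.ctl 1 one_pos] with n k1 k3 k2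
    have := k2.env.nc _ _ _ (reg_base k2.bas zero_le_one zero_le_one) (1 / (6 * K + 1))
      ⟨by positivity, q1⟩
    rw [(h.bu.all n).2.1] at this
    refine this fun y hy => ?_
    have b := abs_sc_le3 finrank_E3 (bu_met h.bu n) (bl_subset hy)
      (k1.rm 0 ⟨k3.neg, le_rfl⟩ y (bl_mono q1 hy))
    rw [div_pow, one_pow, one_div_one_div]
    nlinarith [le_abs_self (Sc ((F n).g 0) y)]

theorem wit (κ0 : 0 < P.κ) (hL : ∀ I, Bk I → (∀ τ > 0, -τ ∈ I → ∃ K, EB l F τ K) →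
    ∃ (L : LimF l F) (G : ℝ → Ten E3 L.X), LP P l F L G I) :
    ∃ (L : LimF l F) (E : ℝ), ∀ θ > 0, Wit L β E θ := by
  obtain ⟨b, hb, tb⟩ := (isCompact_Icc (a := -T) (b := 0)).ultrafilter_le_nhds (l.map β)
    (le_principal_iff.2 (h.tp.mono fun _ k => ⟨k.le, k.neg⟩))
  replace tb : Tendsto β l (𝓝 b) := tb
  rcases hb.2.eq_or_lt with rfl | b0
  · obtain ⟨L⟩ := h.lim κ0
    refine ⟨L, 1, fun θ θ0 => ⟨0, le_rfl, _, L.h, L.conv, ?_, lim_nn h.bu L, fun _ k => k,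
      fun _ _ k => by simpa using k, fun f k => ⟨f, k⟩⟩⟩
    filter_upwards [h.tp, tb.eventually (le_mem_nhds (neg_lt_zero.2 θ0))] with n k1 k2
    exact ⟨bu_met h.bu n, k1.neg, by linarith⟩
  obtain ⟨L, G, H⟩ := hL _ (bk_Ioc (neg_pos.2 b0)) fun τ _ hτ => ⟨K, fun A A0 => by
    filter_upwards [h.cp A A0, tb.eventually (ge_mem_nhds (neg_neg b ▸ hτ.1))] with n k1 k2
    exact ⟨SF.rf_sub k1.rf (Icc_subset_Icc_left (by linarith)) k1.rf.isOpen Subset.rfl,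
      fun s hs => k1.rm s ⟨by linarith [hs.1], hs.2⟩⟩⟩
  rw [neg_neg] at H
  have e : G 0 = L.h := funext fun q => H.fl.zero trivial
  have m : ∀ s ∈ Ioc b 0, ∀ᶠ n in (l : Filter ι), Met ((F n).g s) ((F n).sl s) ∧ β n ≤ s :=
    fun s hs => by
    filter_upwards [h.tp, tb.eventually (ge_mem_nhds hs.1)] with n k1 k2
    exact ⟨(h.bu.all n).1.sf.met (P216HV.sl_sl (h.bu.all n).1 (k1.sl.mem_Icc.1.trans k2)
      (hs.2.trans_eq (h.bu.all n).2.1.symm)), k2⟩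
  have n1 : ∀ s ∈ Ioc b 0, NN (G s) univ ∧ ∀ q ∈ univ, Sc (G s) q ≤ 6 * K := fun s hs =>
    ⟨H.nn s hs, fun q _ => by
      obtain ⟨A, A0, k⟩ := ev_mem L q
      refine le_of_tendsto (conv_sc_pt (H.conv s hs) ((m s hs).mono fun _ k => k.1) trivial) ?_
      filter_upwards [k, h.cp A A0, m s hs] with n k1 k2 k3
      exact (le_abs_self _).trans (abs_sc_le3 finrank_E3 (k2.rf.met ⟨k3.2, hs.2⟩) k1
        (k2.rm s ⟨k3.2, hs.2⟩ _ k1))⟩
  refine ⟨L, Real.exp (6 * K * T), fun θ θ0 => ?_⟩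
  obtain ⟨t, t1, t2⟩ := exists_between (lt_min b0 (show b < b + θ by linarith))
  have t3 : t ∈ Ioc b 0 := ⟨t1, (t2.trans_le (min_le_left _ _)).le⟩
  have i : Icc t 0 ⊆ Ioc b 0 := Icc_subset_Ioc_left t1
  have r : RF G (Icc t 0) univ := SF.rf_sub H.fl.rf i isOpen_univ Subset.rfl
  have N := P216LC.nmp ⟨L.X⟩ G univ t 0 _ t3.2 r fun s hs => n1 s (i hs)
  refine ⟨t, t3.2, _, G t, H.conv t t3, ?_, H.nn t t3, fun k hk q => ?_, fun k k0 hk q => ?_,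
    fun f hf => P216BG.bsp ⟨L.X⟩ G univ f t 0 _ t3.2 r (fun s hs => n1 s (i hs)) ⟨L.o, trivial⟩
      (e ▸ hf)⟩
  · filter_upwards [m t t3, tb.eventually (le_mem_nhds
      (show t - θ < b by linarith [t2.trans_le (min_le_right _ _)]))] with n k1 k2
    exact ⟨k1.1, k1.2, by linarith⟩
  · exact e ▸ N.1 k (fun q _ => hk q) q trivial
  · refine (e ▸ N.2 k (fun q _ => hk q) q trivial).trans (mul_le_mul_of_nonneg_left
      (Real.exp_le_exp.2 (mul_le_mul_of_nonneg_left (by linarith [hb.1]) ?_)) k0)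
    linarith [h.K0]

theorem vol (L : LimF l F) {η : ℝ} (η0 : 0 < η) (hη : ∀ᶠ n in (l : Filter ι), (F n).h ≤ η) :
    ∃ V, ∀ ρ ≥ 1, vol L.h (bl L.h univ L.o ρ) ≤ ENNReal.ofReal (V * ρ) := by
  have K0 := h.K0
  have c0 := h.c1 0
  refine ⟨2 ^ 3 * (Real.exp (6 * K * T) * (P.c 0 * η ^ 2 *
    (P.c 0 * η + |R| + Real.exp (2 * K * T) * 2))), fun ρ hρ => ?_⟩
  obtain ⟨n, k1, k2, k3, k4, k5, k6, k7⟩ := ((conv_vol_ge L.conv (.of_forall (bu_met h.bu))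
    (L.cpl.cpt (mem_univ L.o) (ρ + 1)) one_lt_two (lt_add_one ρ)).and (L.base.and (h.tp.and
    ((h.cp (2 * ρ) (by linarith)).and (hη.and ((ev_small h.del (P.c 0) one_half_pos).and
    (ev_small h.del (|R| + Real.exp (2 * K * T) * (2 * ρ)) (half_pos h.h0)))))))).exists
  have hF := (h.bu.all n).1
  have hp := hF.hpos
  rw [k2] at k1
  have v1 := rf_vol_le_const k4.rf k3.neg (hF.sf.sl_cpt hF.sl).isLindelof bl_subset Subset.rfl
    k4.rf.isOpen.measurableSet (C := 6 * K) fun τ hτ u hu => (abs_le.1 (abs_sc_le3 finrank_E3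
      (k4.rf.met (Ioo_subset_Icc_self hτ)) hu (k4.rm τ (Ioo_subset_Icc_self hτ) u hu))).1
  have e0 : 0 ≤ |R| + Real.exp (2 * K * T) * (2 * ρ) := by positivity
  have v2 := k3.tip.vol (P.c 0 * (F n).h + (|R| + Real.exp (2 * K * T) * (2 * ρ)))
    ⟨by nlinarith, room hF k3.low k6 k7⟩
  have v3 := (measure_mono ((k4.fwd k3 K0).trans (bl_mono (by linarith [le_abs_self R])))).trans v2
  refine k1.trans (le_trans (mul_le_mul_right (v1.trans (mul_le_mul_right v3 _)) _) ?_)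
  rw [← ENNReal.ofReal_mul (by positivity), ← ENNReal.ofReal_mul (by positivity)]
  refine ENNReal.ofReal_le_ofReal ?_
  have e1 : P.c 0 * (F n).h + (|R| + Real.exp (2 * K * T) * (2 * ρ)) ≤
      (P.c 0 * η + |R| + Real.exp (2 * K * T) * 2) * ρ := by
    nlinarith [mul_le_mul_of_nonneg_left k5 (zero_le_one.trans c0), abs_nonneg R,
      mul_nonneg (mul_nonneg (zero_le_one.trans c0) η0.le) (sub_nonneg.2 hρ)]
  have e2 : 0 - β n ≤ T := by linarith [k3.le]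
  rw [mul_assoc (2 ^ 3), mul_assoc (Real.exp _), mul_assoc (P.c 0 * η ^ 2)]
  gcongr

theorem out {L : LimF l F} {E : ℝ} (hW : ∀ θ > 0, Wit L β E θ) : SOut l F := by
  have h0 := h.h0
  have c0 := h.c1 0
  have K0 := h.K0
  obtain ⟨μ, hμ, tu⟩ := (isCompact_Icc (a := 0) (b := (h₀ ^ 2)⁻¹)).ultrafilter_le_nhds
    (l.map fun n => ((F n).h ^ 2)⁻¹) (le_principal_iff.2 (h.tp.mono fun _ k =>
      ⟨by positivity, inv_anti₀ (by positivity) (pow_le_pow_left₀ h0.le k.low 2)⟩))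
  replace tu : Tendsto (fun n => ((F n).h ^ 2)⁻¹) l (𝓝 μ) := tu
  obtain ⟨C, C0, hC⟩ := h.sc
  have s1 : ∀ θ > 0, ∀ q, μ - C * θ ≤ Sc L.h q ∧ Sc L.h q ≤ (P.c 0 * μ + C * θ) * E := by
    intro θ θ0
    obtain ⟨t, t0, V, h', w1, w2, -, w4, w5, -⟩ := hW θ θ0
    have k : ∀ q, μ - C * θ ≤ Sc h' q ∧ Sc h' q ≤ P.c 0 * μ + C * θ := fun q => by
      obtain ⟨A, A0, k⟩ := ev_mem L q
      have s := conv_sc_pt w1 (w2.mono fun _ k => k.1) (mem_univ q)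
      have a := ((k.and ((hC A A0).and w2)).mono fun n k => And.intro (k.2.1 t ⟨k.2.2.2.1, t0⟩ _ k.1)
        (mul_le_mul_of_nonneg_left (show t - β n ≤ θ by linarith [k.2.2.2.2]) C0))
      have l1 := (((tendsto_const_nhds (x := (1 : ℝ))).sub h.del).mul tu).sub_const (C * θ)
      rw [sub_zero, one_mul] at l1
      exact ⟨le_of_tendsto_of_tendsto l1 s (a.mono fun n k => by linarith [k.1.1, k.2]),
        le_of_tendsto_of_tendsto s ((tu.const_mul _).add_const _)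
          (a.mono fun n k => by linarith [k.1.2, k.2])⟩
    exact fun q => ⟨w4 _ (fun q => (k q).1) q,
      w5 _ (by have := hμ.1; positivity) (fun q => (k q).2) q⟩
  have o1 : Sc L.h L.o = 1 := tendsto_nhds_unique (L.conv.sc_ap (.of_forall (bu_met h.bu))
    trivial L.ap) (tendsto_const_nhds.congr fun n => (h.bu.all n).2.2.symm)
  have μ0 : 0 < μ := hμ.1.lt_of_ne fun e => by
    have := (s1 (1 / (C * |E| + 1)) (by positivity) L.o).2
    rw [o1, ← e, mul_zero, zero_add, mul_one_div, div_mul_eq_mul_div,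
      le_div_iff₀ (by positivity)] at this
    nlinarith [le_abs_self E]
  have s2 : ∀ q, μ ≤ Sc L.h q := fun q => le_of_forall_pos_le_add fun ε ε0 => by
    have := (s1 (ε / (C + 1)) (by positivity) q).1
    have : C * (ε / (C + 1)) ≤ ε := by
      rw [← mul_div_assoc, div_le_iff₀ (by positivity)]; nlinarith
    linarith
  have th : Tendsto (fun n => (F n).h) l (𝓝 (√μ)⁻¹) :=
    (tu.sqrt.inv₀ (Real.sqrt_pos.2 μ0).ne').congr fun n => by
      rw [Real.sqrt_inv, inv_inv, Real.sqrt_sq (h.bu.all n).1.hpos.le]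
  have η0 : 0 < (√μ)⁻¹ := by positivity
  have hη := th.eventually (ge_mem_nhds (lt_add_one _))
  refine ⟨L, _, η0, th, fun q => (lim_nn h.bu L).sec q trivial, fun q => ?_, fun ⟨f, hf⟩ => ?_,
    h.vol L (by linarith) hη⟩
  · rw [inv_pow, Real.sq_sqrt μ0.le, ← div_eq_inv_mul, one_le_div μ0]; exact s2 q
  have A0 : 0 < Real.exp (2 * K * T) * (P.c 0 * ((√μ)⁻¹ + 1) + |R|) := by positivity
  have pm : ∀ᶠ n in (l : Filter ι), p n ∈ bl ((F n).g 0) (F n).U (F n).x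
      (Real.exp (2 * K * T) * (P.c 0 * ((√μ)⁻¹ + 1) + |R|)) := by
    filter_upwards [h.cp _ A0, h.tp, hη] with n k1 k2 k3
    exact k1.bwd k2 (h.bu.all n).1 (h.bu.all n).2.1 K0 (by gcongr; exact le_abs_self R)
  obtain ⟨q, -, hq⟩ := L.exists_ap (.of_forall (bu_hs h.bu)) ENNReal.ofReal_lt_top
    (pm.mono fun _ k => le_of_lt k)
  obtain ⟨D, hD⟩ := h.shi 2
  obtain ⟨θ, θ0, hθ⟩ := P216D.rtr (max K D) (μ / 2 / P.c 0) (by positivity)
  obtain ⟨t, t0, V, h', w1, w2, w3, -, -, w6⟩ := hW θ θ0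
  obtain ⟨f', hf'⟩ := w6 f hf
  refine (P216BG.sln ⟨L.X⟩ h' univ f' q w3.met w3.hs w3.cpl hf' trivial).2 (μ / 2 / P.c 0 / 2)
    (by positivity) (P216LC.ricGe_ap w1 (w2.mono fun _ k => k.1) trivial hq tendsto_const_nhds ?_)
  filter_upwards [pm, h.cp _ A0, hD _ A0, h.tp, w2, tu.eventually (le_mem_nhds (half_lt_self μ0))]
    with n k1 k2 k3 k4 k5 k6
  have i : Icc (β n) t ⊆ Icc (β n) 0 := Icc_subset_Icc_right t0
  refine hθ _ _ _ _ _ _ k5.2.1 (by linarith [k5.2.2]) (SF.rf_sub k2.rf i k2.rf.isOpen Subset.rfl) k1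
    (fun s hs => ⟨rmB_mono (k2.rm s (i hs) _ k1) (le_max_left _ _),
      rmB_mono (k3 s (i hs) _ k1) (le_max_right _ _)⟩)
    (k4.tip.ric.mono ((k2.rf.met ⟨le_rfl, k4.neg⟩).nonneg k1) ?_)
  rw [one_div, mul_inv, mul_comm, ← div_eq_mul_inv]
  gcongr

end Sq

/-- **SOUT** -/
theorem sout (hL : LPX) : SOUT := fun c => by
  obtain ⟨e, e0, hL⟩ := hL c
  refine ⟨e, e0, fun P hc hP => ?_⟩
  obtain ⟨a₀, a0, H⟩ := star P216SD.fwd P hP
  refine ⟨a₀, a0, fun a ha ι l X F T h hδ hC => ?_⟩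
  obtain ⟨K, K0, T', R, h₀, h0, β, p, h1, h2⟩ := H a ha ι l X F T h hδ hC
  have S : Sq P l F K T' R h₀ β p := ⟨h, hδ, hP.c1, K0, h0, h1, h2⟩
  obtain ⟨L, E, hW⟩ := S.wit hP.κ0 fun I hI k => hL P hc hP ι l X F I h hI k
  exact S.out hW

theorem sout' : SOUT := sout P216LP.lpx'

end Vale.Agent.P216SO
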