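import Vale.Agent.P216LN.Core
import Vale.Agent.P216BF.Vol
import Vale.Agent.P216D.ShiL
import Vale.Agent.P216KV.RT

/-!
# P216SO: the flow that starts from a cap covers the balls of the base slice
-/

open scoped Manifold ContDiff Topology ENNReal
open Set MeasureTheory Filter

set_option maxSynthPendingDepth 3

noncomputable section

namespace Vale.Agent.P216SO

open Vale.Agent.P216R Vale.Agent.P216DC Vale.Agent.P216SG Vale.Agent.P216BF Vale.Agent.P216FA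
open Vale.Agent.P216U Vale.Agent.P216LN

/-- the ball of radius `A` about the base point lives on `[β, 0]` with `|Rm| ≤ K` -/
structure Cp {X : Mf} (F : Dat X.M) (β A K : ℝ) : Prop where
  sub : bl (F.g 0) F.U F.x A ⊆ postS F.b F.d β
  rf : RF F.g (Icc β 0) (bl (F.g 0) F.U F.x A)
  rm : ∀ σ ∈ Icc β 0, ∀ u ∈ bl (F.g 0) F.U F.x A, RmB (F.g σ) 0 u K

/-- `p` is the tip of a cap born at the time `β`, near the base point -/
structure Tp {X : Mf} (F : Dat X.M) (c : ℕ → ℝ) (β : ℝ) (p : X.M) (T R h₀ : ℝ) : Prop where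
  sl : Sl F.b F.d F.T₀ F.T₁ (postS F.b F.d β) β
  le : -T ≤ β
  neg : β ≤ 0
  tip : Tip c (F.g β) (postS F.b F.d β) p F.h F.δ
  near : F.x ∈ bl (F.g β) (postS F.b F.d β) p (c 0 * F.h + R)
  low : h₀ ≤ F.h

section one

variable {X : Mf} {F : Dat X.M} {c : ℕ → ℝ} {W : Set X.M} {y z p u : X.M}
  {β A A' K K' T T' R h₀ ρ ρ' τ r s : ℝ}

theorem exp_le (hK : 0 ≤ K) (h : |s| ≤ T) : Real.exp (K * |s|) ≤ Real.exp (K * T) :=
  Real.exp_le_exp.2 (mul_le_mul_of_nonneg_left h hK)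

theorem post_sl (hF : F.Bas c) (hW : Sl F.b F.d F.T₀ F.T₁ W s) (hz : z ∈ W) :
    Sl F.b F.d F.T₀ F.T₁ (postS F.b F.d (F.b z)) (F.b z) := by
  refine sl_post ⟨hF.sf.ge z, ?_⟩
  rcases hW with ⟨h, rfl⟩ | ⟨h, rfl⟩
  exacts [hz.1.trans_le h.2, hz.1.trans_lt h.2]

/-- from the base time back to the time `-T` -/
theorem mid (hF : F.Bas c) (ht : F.t = 0) (hT : 0 < T) (hT' : T ≤ T')
    (hp : Prec F.b F.d F.U F.t W (-T)) (hy : y ∈ bl (F.g 0) F.U F.x A)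
    (h : ParB F.g F.U F.x 0 (A + ρ) T' K) :
    bl (F.g 0) F.U y ρ ⊆ bl (F.g (-T)) W y (Real.exp (2 * K * T) * ρ) := by
  have h1 : bl (F.g 0) F.U y ρ ⊆ bl (F.g 0) F.U F.x (A + ρ) := bl_sub_bl' hy le_rfl
  obtain ⟨e, -⟩ | ⟨-, rfl⟩ := hp
  · linarith
  have h2 := rf_bl_fwd (U' := postS F.b F.d (-T)) (s := -T) (ρ := ρ) h.1
    (ricB_of_parB finrank_E3 h) ⟨by linarith, by linarith⟩ ⟨by linarith, le_rfl⟩ h1
    (h1.trans ((hF.sf.subset_liv (by linarith) h.1.toFam).trans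
      (liv_subset_postS ⟨by linarith, by linarith⟩))) le_rfl
  rwa [sub_zero, abs_neg, abs_of_pos hT] at h2

/-- the surviving ball about a new point covers a ball of the base slice -/
theorem cover (hF : F.Bas c) (ht : F.t = 0) (hW : Sl F.b F.d F.T₀ F.T₁ W (-T)) (hT : 0 ≤ T)
    (hρ : 0 ≤ ρ) (hz : z ∈ cbl (F.g (-T)) W y ρ) (hτ : -T - τ ≤ F.b z) (hK : 0 ≤ K)
    (hf : F.Fwd c W (-T) z R K) (h1 : bl (F.g 0) F.U F.x A ⊆ bl (F.g (-T)) W y ρ')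
    (h2 : ∀ σ ∈ Ioc (-T) 0, ∀ u ∈ bl (F.g 0) F.U F.x A, RmB (F.g σ) 0 u K') (hK' : K ≤ K')
    (hρ' : 0 ≤ ρ') (hR : Real.exp (2 * K * τ) * (ρ + ρ') ≤ R) :
    bl (F.g 0) F.U F.x A ⊆ bl (F.g (F.b z)) (postS F.b F.d (F.b z)) z R ∧ Cp F (F.b z) A K' := by
  have zW : z ∈ W := cbl_subset hz
  have s1 := post_sl hF hW zW
  have b1 : F.b z ≤ -T := (hW.alive zW).1
  have m1 := hF.sf.met s1
  have zV : z ∈ postS F.b F.d (F.b z) := let ⟨_, _, h⟩ := hf.tip; bl_subset h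
  have e1 : Real.exp (2 * K * |F.b z - -T|) * (ρ + ρ') ≤ R := le_trans
    (mul_le_mul_of_nonneg_right (exp_le (by positivity) (abs_le.2 ⟨by linarith, by linarith⟩))
      (by linarith)) hR
  have h3 : bl (F.g 0) F.U F.x A ⊆ bl (F.g (F.b z)) (postS F.b F.d (F.b z)) z R :=
    (h1.trans (bl_add hρ (show ed _ _ z y ≤ _ from ed_comm.trans_le hz))).trans
      ((rf_bl_bwd hf.rf (ricB_of_rmB finrank_E3 hf.rf.toFam hf.rm) ⟨b1, le_rfl⟩ ⟨le_rfl, b1⟩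
        (m1.isOpen_bl _ _) Subset.rfl hf.sub (hF.sf.sl_hs hW)
        ((m1.cpl (hF.sf.sl_cpt s1)).cpt zV _) zV e1).trans (bl_mono e1))
  have o1 : IsOpen (bl (F.g 0) F.U F.x A) := (ht ▸ bas_met hF).isOpen_bl _ _
  refine ⟨h3, h3.trans bl_subset, ?_, fun σ hσ u hu => ?_⟩
  · rcases (b1.trans (neg_nonpos.2 hT)).eq_or_lt with e | e
    · exact SF.rf_sub hf.rf (Icc_subset_Icc_right (by linarith)) o1 h3
    · exact hF.sf.rf_of_born (ht ▸ hF.sl) e o1 bl_subset fun u hu => (bl_subset (h3 hu)).1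
  · rcases le_or_gt σ (-T) with e | e
    · exact rmB_mono (hf.rm σ ⟨hσ.1, e⟩ u (h3 hu)) hK'
    · exact h2 σ ⟨e, hσ.2⟩ u hu

theorem Cp.mono (h : Cp F β A K) (hm : Met (F.g 0) F.U) (hA : A' ≤ A) : Cp F β A' K :=
  ⟨(bl_mono hA).trans h.sub, SF.rf_sub h.rf Subset.rfl (hm.isOpen_bl _ _) (bl_mono hA),
    fun σ hσ u hu => h.rm σ hσ u (bl_mono hA hu)⟩

theorem Cp.ricB (h : Cp F β A K) : RicB F.g (Icc β 0) (bl (F.g 0) F.U F.x A) (2 * K) :=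
  ricB_of_rmB finrank_E3 h.rf.toFam h.rm

theorem Cp.fwd (h : Cp F β A K) (t : Tp F c β p T R h₀) (hK : 0 ≤ K) :
    bl (F.g 0) F.U F.x A ⊆ bl (F.g β) (postS F.b F.d β) p
      (c 0 * F.h + R + Real.exp (2 * K * T) * A) := fun u hu => by
  have h1 := rf_bl_fwd h.rf h.ricB ⟨le_rfl, t.neg⟩ ⟨t.neg, le_rfl⟩ Subset.rfl h.sub le_rfl hu
  refine bl_sub_bl' t.near (add_le_add le_rfl ?_) h1
  exact mul_le_mul_of_nonneg_right (exp_le (by positivity)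
    (abs_le.2 ⟨by linarith [t.le], by linarith [t.le, t.neg]⟩)) (pos_of_mem_bl hu).le

theorem Cp.bwd (h : Cp F β A K) (t : Tp F c β p T R h₀) (hF : F.Bas c) (ht : F.t = 0) (hK : 0 ≤ K)
    (hA : Real.exp (2 * K * T) * (c 0 * F.h + R) ≤ A) : p ∈ bl (F.g 0) F.U F.x A := by
  have m : Met (F.g 0) F.U := ht ▸ bas_met hF
  have e : Real.exp (2 * K * |0 - β|) * (c 0 * F.h + R) ≤ A := le_trans
    (mul_le_mul_of_nonneg_right (exp_le (by positivity)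
      (abs_le.2 ⟨by linarith [t.le, t.neg], by linarith [t.le]⟩)) (pos_of_mem_bl t.near).le) hA
  exact bl_mono e (rf_bl_bwd h.rf h.ricB ⟨le_rfl, t.neg⟩ ⟨t.neg, le_rfl⟩ (m.isOpen_bl _ _)
    Subset.rfl h.sub (hF.sf.sl_hs t.sl) ((show Cpl (F.g 0) F.U from ht ▸ bas_cpl hF).cpt hF.mem _)
    hF.mem e (mem_bl_comm.1 t.near))

theorem room (hF : F.Bas c) (h0 : h₀ ≤ F.h) (h1 : F.δ * c 0 ≤ 1 / 2) (h2 : F.δ * R ≤ h₀ / 2) :
    c 0 * F.h + R ≤ F.h / F.δ := by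
  rw [le_div_iff₀ hF.dpos]
  nlinarith [hF.hpos]

/-- the ball lies in the controlled part of the cap -/
theorem Cp.cap (h : Cp F β A K) (t : Tp F c β p T R h₀) (hF : F.Bas c) (hK : 0 ≤ K)
    (h1 : F.δ * c 0 ≤ 1 / 2) (h2 : F.δ * (R + Real.exp (2 * K * T) * A) ≤ h₀ / 2) :
    bl (F.g 0) F.U F.x A ⊆ bl (F.g β) (postS F.b F.d β) p (F.h / F.δ) :=
  (h.fwd t hK).trans (bl_mono (by rw [add_assoc]; exact room hF t.low h1 h2))

end one

/-- derivative bounds up to the birth time -/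
theorem shi_cp (c : ℕ → ℝ) (hc : ∀ j, 1 ≤ c j) (k : ℕ) (K T : ℝ) {h₀ : ℝ} (h0 : 0 < h₀) : ∃ D,
    ∀ (X : Mf) (F : Dat X.M) (β A R : ℝ) (p : X.M), F.Bas c → F.t = 0 → Cp F β (A + 1) K →
      Tp F c β p T R h₀ → (k : ℝ) ≤ 1 / F.δ →
      bl (F.g 0) F.U F.x (A + 1) ⊆ bl (F.g β) (postS F.b F.d β) p (F.h / F.δ) →
      ∀ σ ∈ Icc β 0, ∀ u ∈ bl (F.g 0) F.U F.x A, RmB (F.g σ) k u D := by
  obtain ⟨B, hB⟩ := ((finite_le_nat k).image fun j => c j / h₀ ^ (j + 2)).bddAbove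
  obtain ⟨D, hD⟩ := P216D.shi0_init k T (show 0 ≤ max |K| B by positivity) one_pos
  refine ⟨max D B, fun X F β A R p hF ht h t hk hs σ hσ u hu => ?_⟩
  have m : Met (F.g 0) F.U := ht ▸ bas_met hF
  have u1 : u ∈ bl (F.g 0) F.U F.x (A + 1) := bl_mono (by linarith) hu
  have i : ∀ z ∈ bl (F.g 0) F.U F.x (A + 1), ∀ j ≤ k, RmB (F.g β) j z B := fun z hz j hj =>
    rmB_mono (t.tip.rm j ((Nat.cast_le.2 hj).trans hk) z (hs hz)) (le_trans
      (div_le_div_of_nonneg_left (zero_le_one.trans (hc j)) (pow_pos h0 _)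
        (pow_le_pow_left₀ h0.le t.low _)) (hB ⟨j, hj, rfl⟩))
  rcases t.neg.eq_or_lt with e | e
  · rw [show σ = β by linarith [hσ.1, hσ.2]]
    exact rmB_mono (i u u1 k le_rfl) (le_max_right _ _)
  · refine rmB_mono (hD X.M F.g _ β 0 0 u h.rf ((bas_hs hF).mono bl_subset) e (by linarith [t.le])
      ⟨e.le, le_rfl⟩ u1 (((show Cpl (F.g 0) F.U from ht ▸ bas_cpl hF).cpt (bl_subset hu)
        1).restrict (bl_sub_bl' hu le_rfl) bl_subset one_pos)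
      (fun s hs z hz => rmB_mono (h.rm s hs z hz) ((le_abs_self _).trans (le_max_left _ _)))
      (fun z hz j hj => rmB_mono (i z hz j hj) (le_max_right _ _)) σ hσ) (le_max_left _ _)

/-- the scalar curvature is Lipschitz in time -/
theorem sc_lip (K D : ℝ) : ∃ C ≥ 0, ∀ (X : Mf) (g : ℝ → Ten E3 X.M) (V : Set X.M) (a b : ℝ)
    (u : X.M), RF g (Icc a b) V → u ∈ V → (∀ t ∈ Icc a b, RmB (g t) 0 u K ∧ RmB (g t) 2 u D) →
    ∀ t ∈ Icc a b, |Sc (g t) u - Sc (g a) u| ≤ C * (t - a) := by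
  obtain ⟨c, c0, H⟩ := P216KV.rt
  refine ⟨c * (|D| + K ^ 2), by positivity, fun X g V a b u h hu hb t ht => ?_⟩
  rcases (ht.1.trans ht.2).eq_or_lt with e | e
  · rw [show t = a by linarith [ht.1, ht.2]]; simp
  have h1 := Convex.norm_image_sub_le_of_norm_derivWithin_le (𝕜 := ℝ) (C := c * (|D| + K ^ 2))
    ((sc_time h.toFam hu).differentiableOn (by simp)) (fun s hs => (H X.M g _ V u s K D h
      (convex_Icc a b) (by rw [interior_Icc]; exact nonempty_Ioo.2 e) hs hu (hb s hs).1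
      (hb s hs).2).trans (by gcongr; exact le_abs_self D)) (convex_Icc a b)
    ⟨le_rfl, e.le⟩ ht
  rwa [Real.norm_eq_abs, Real.norm_eq_abs, abs_of_nonneg (sub_nonneg.2 ht.1)] at h1

theorem ev_small {ι : Type} {l : Filter ι} {δ : ι → ℝ} (h : Tendsto δ l (𝓝 0)) (R : ℝ) {e : ℝ}
    (he : 0 < e) : ∀ᶠ n in l, δ n * R ≤ e :=
  (h.mul_const R).eventually (eventually_le_nhds (by simpa using he))

/-- the data that a cap at bounded distance provides -/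
def Star {ι : Type} {X : ι → Mf} (c : ℕ → ℝ) (l : Filter ι) (F : ∀ n, Dat (X n).M) : Prop :=
  ∃ K ≥ 0, ∃ T R, ∃ h₀ > 0, ∃ (β : ι → ℝ) (p : ∀ n, (X n).M),
    (∀ᶠ n in l, Tp (F n) c (β n) (p n) T R h₀) ∧ ∀ A > 0, ∀ᶠ n in l, Cp (F n) (β n) A K

theorem star (hW : FWD) (P : Cs) {e : ℝ} (hP : P.Ok e) : ∃ a₀ > 0, ∀ a ∈ Ioc 0 a₀,
    ∀ (ι : Type) (l : Filter ι) (X : ι → Mf) (F : ∀ n, Dat (X n).M) (T : ℝ), BU P l F →
      Tendsto (fun n => (F n).δ) l (𝓝 0) → CapAt (wr a) (wt a) P.L l F T → Star P.c l F := by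
  obtain ⟨a₀, a0, B, B0, hW⟩ := hW P e hP
  refine ⟨a₀, a0, fun a ha ι l X F T h hδ ⟨h1, A, K, r, hK, h2⟩ => ?_⟩
  have K0 : 0 < K := (one_pos.trans_le (le_max_right _ _)).trans_le hK
  have T0 : 0 ≤ T := h1.elim (fun e => e.ge) fun e => e.1.le
  have r0 := (wr_pos ha.1 K0).le
  have : ∀ n, Nonempty (X n).M := fun n => ⟨(F n).x⟩
  choose! y hy W z k using fun n (hn : ∃ y ∈ bl ((F n).g 0) (F n).U (F n).x A, ∃ W z,
    (F n).Reg r T W (-T) y ∧ Sc ((F n).g (-T)) y ≤ K ∧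
      (F n).Born W (-T) y z (wr a K) (wt a K) (4 * K) r) => hn
  replace hy := h2.mono hy
  replace k := h2.mono k
  have hs : ∀ᶠ n in l, Sl (F n).b (F n).d (F n).T₀ (F n).T₁ (W n) (-T) := by
    filter_upwards [k, h.ctl (T + 1) (by linarith)] with n k1 k2
    have := k2.env.init
    rcases k1.1.prec with ⟨e1, e2⟩ | ⟨e1, e2⟩
    · rw [e1, e2]; exact k2.bas.sl
    · rw [e2]; exact sl_post ⟨by linarith [k1.1.le], e1.trans_le k2.bas.sl.mem_Icc.2⟩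
  have f0 : ∀ R, ∀ᶠ n in l, (F n).δ * R ≤ (F n).h / 4 → 1 ≤ 8 * K * (F n).h ^ 2 ∧
      (F n).Fwd P.c (W n) (-T) (z n) R (B * K) := fun R => by
    obtain ⟨lev, l0, H⟩ := hW a ha r T R
    filter_upwards [k, h.ctl lev l0, ev_small hδ (P.c 0) (by norm_num : (0 : ℝ) < 1 / 8)]
      with n k1 k2 k3 using H _ _ _ _ _ _ _ _ k2 k1.1 hK k1.2.2 k3
  have q0 : 0 < (√(8 * K))⁻¹ := by positivity
  have f1 : ∀ᶠ n in l, (√(8 * K))⁻¹ ≤ (F n).h := (f0 0).mono fun n k => by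
    have h0 := (h.all n).1.hpos
    refine abs_le_of_sq_le_sq' ?_ h0.le |>.2
    rw [inv_pow, Real.sq_sqrt (by positivity), inv_le_iff_one_le_mul₀' (by positivity)]
    exact (k (by linarith)).1
  have f2 : ∀ R, ∀ᶠ n in l, (F n).Fwd P.c (W n) (-T) (z n) R (B * K) := fun R => by
    filter_upwards [f0 R, f1, ev_small hδ R (div_pos q0 four_pos)] with n k1 k2 k3
    exact (k1 (by linarith)).2
  obtain ⟨K', K1, hm⟩ : ∃ K' ≥ B * K, ∀ ρ > 0, ∀ᶠ n in l,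
      bl ((F n).g 0) (F n).U (y n) ρ ⊆
        bl ((F n).g (-T)) (W n) (y n) (Real.exp (2 * K' * T) * ρ) ∧
      ∀ σ ∈ Ioc (-T) 0, ∀ u ∈ bl ((F n).g 0) (F n).U (F n).x ρ, RmB ((F n).g σ) 0 u K' := by
    rcases h1 with rfl | ⟨t0, T', t1, K', H⟩
    · refine ⟨_, le_rfl, fun ρ _ => k.mono fun n k => ⟨?_, fun σ hσ => by simp at hσ⟩⟩
      obtain ⟨-, e⟩ | ⟨e, -⟩ := k.1.prec
      · simp [e]
      · rw [(h.all n).2.1] at e; simp at e
    · refine ⟨max (B * K) K', le_max_left _ _, fun ρ ρ0 => ?_⟩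
      filter_upwards [k, hy, eb_mono h H le_rfl (le_max_right (B * K) K') (|A| + ρ)
        (by positivity)] with n k1 k2 k3
      exact ⟨mid (h.all n).1 (h.all n).2.1 t0 t1.le k1.1.prec
        (bl_mono (le_abs_self A) k2) k3, fun σ hσ u hu => k3.2 σ ⟨by linarith [hσ.1], hσ.2⟩ u
        (bl_mono (by linarith [abs_nonneg A]) hu)⟩
  have BK : 0 ≤ B * K := by positivity
  have cv : ∀ ρ > 0, ∃ R, ∀ᶠ n in l, bl ((F n).g 0) (F n).U (F n).x ρ ⊆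
      bl ((F n).g ((F n).b (z n))) (postS (F n).b (F n).d ((F n).b (z n))) (z n) R ∧
      Cp (F n) ((F n).b (z n)) ρ K' := fun ρ ρ0 => by
    refine ⟨Real.exp (2 * (B * K) * wt a K) * (wr a K + Real.exp (2 * K' * T) * (|A| + ρ)), ?_⟩
    filter_upwards [k, hy, hs, f2 _, hm (|A| + ρ) (by positivity)] with n k1 k2 k3 k4 k5
    exact cover (h.all n).1 (h.all n).2.1 k3 T0 r0 k1.2.2.mem k1.2.2.le BK k4
      ((bl_sub_bl' (mem_bl_comm.1 k2) (add_le_add (le_abs_self A) le_rfl)).trans k5.1)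
      (fun σ hσ u hu => k5.2 σ hσ u (bl_mono (by linarith [abs_nonneg A]) hu)) K1
      (by positivity) le_rfl
  obtain ⟨R, hR⟩ := cv 1 one_pos
  choose! p hp using fun n (hn : (F n).Fwd P.c (W n) (-T) (z n) 0 (B * K)) => hn.tip
  refine ⟨K', BK.trans K1, T + wt a K, R, _, q0, fun n => (F n).b (z n), p, ?_,
    fun ρ ρ0 => (cv ρ ρ0).choose_spec.mono fun _ k => k.2⟩
  filter_upwards [k, hs, f1, (f2 0).mono hp, hR] with n k1 k2 k3 k4 k5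
  have zW : z n ∈ W n := cbl_subset k1.2.2.mem
  exact ⟨post_sl (h.all n).1 k2 zW, by linarith [k1.2.2.le], by linarith [(k2.alive zW).1], k4.1,
    bl_sub_bl' k4.2 le_rfl (k5.1 (mem_bl_self (h.all n).1.mem one_pos)), k3⟩

end Vale.Agent.P216SO
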